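import Mathlib
import Vale.Agent.P058.Kite.Ramsey
import Vale.Agent.P058.Kite.NotSubtransitive

/-!
P058: a Ramsey set that is not subtransitive.
-/

namespace Vale.Agent.Results.P058.RamseyNotSubtransitive

open Vale.Agent.P058.Kite

/-- Some four-point set in the plane is Ramsey and is congruent to no subset of a finite transitive
set. So the Leader-Russell-Walters characterisation is false. -/
theorem result : ∃ A : Finset (EuclideanSpace ℝ (Fin 2)), A.card = 4 ∧
    (∀ r : ℕ, 2 ≤ r → ∃ D : ℕ, 1 ≤ D ∧ ∀ col : EuclideanSpace ℝ (Fin D) → Fin r,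
      ∃ f : A → EuclideanSpace ℝ (Fin D),
        (∀ a b : A, dist (f a) (f b) = dist (a : EuclideanSpace ℝ (Fin 2)) b) ∧
        ∀ a b : A, col (f a) = col (f b)) ∧
    ¬ ∃ (n : ℕ) (X : Finset (EuclideanSpace ℝ (Fin n))),
      (∀ x ∈ X, ∀ y ∈ X, ∃ g : EuclideanSpace ℝ (Fin n) ≃ᵢ EuclideanSpace ℝ (Fin n),
        g '' (X : Set (EuclideanSpace ℝ (Fin n))) = X ∧ g x = y) ∧
      ∃ f : A → EuclideanSpace ℝ (Fin n), (∀ a, f a ∈ X) ∧
        ∀ a b : A, dist (f a) (f b) = dist (a : EuclideanSpace ℝ (Fin 2)) b := by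
  classical
  obtain ⟨α, hα, h⟩ := exists_alpha
  obtain ⟨h1, h2⟩ := abs_lt.1 h
  have hinj : Function.Injective (pts α) := by
    intro i j hij
    have hx := congrArg (fun p : Sp 2 => p 0) hij
    have hy := congrArg (fun p : Sp 2 => p 1) hij
    have hs : 0 < √(1 - α ^ 2) := Real.sqrt_pos.2 (by nlinarith)
    fin_cases i <;> fin_cases j <;> simp [pts] at hx hy ⊢ <;> linarith
  set e : Fin 4 ≃ (Finset.univ.image (pts α)) :=
    (Equiv.ofInjective _ hinj).trans (Equiv.setCongr (by simp)) with he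
  have hval : ∀ i, (e i : Sp 2) = pts α i := fun i => rfl
  refine ⟨Finset.univ.image (pts α), by rw [Finset.card_image_of_injective _ hinj]; simp, ?_, ?_⟩
  · intro r hr
    obtain ⟨D, hD, hcol⟩ := ramsey h r hr
    refine ⟨D, hD, fun col => ?_⟩
    obtain ⟨f, hf, hm⟩ := hcol col
    refine ⟨fun a => f (e.symm a), fun a b => ?_, fun a b => hm _ _⟩
    rw [hf, ← hval, ← hval, e.apply_symm_apply, e.apply_symm_apply]
  · rintro ⟨n, X, htr, f, hf, hd⟩
    exact not_subtransitive hα ⟨n, X, htr, fun i => f (e i), fun i => hf _, fun i j => hd _ _⟩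

end Vale.Agent.Results.P058.RamseyNotSubtransitive
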