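import Mathlib
import Vale.Agent.P058.Obstruction
import Vale.Agent.P058.Generic

/-!
P058: finite Ramsey sets are rare among spherical sets.
-/

namespace Vale.Agent.Results.P058.RamseySetsAreRare

open Vale.Agent.P058 MeasureTheory

/-- For almost every choice of `n ≥ 3 (m+2)²` points on the unit sphere of `ℝ^(m+1)`, taken in
stereographic coordinates, the points are distinct and form a set that is not Ramsey; and there is
such a set with eight points on the unit circle. -/
theorem result :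
    (∀ m n : ℕ, 1 ≤ m → 3 * (m + 2) ^ 2 ≤ n → ∀ᵐ t : Fin n × Fin m → ℝ,
      Function.Injective (fun i => stereo fun k => t (i, k)) ∧
      (∀ i, ‖stereo fun k => t (i, k)‖ = 1) ∧
      ∃ r : ℕ, 2 ≤ r ∧ ∀ D : ℕ, ∃ col : EuclideanSpace ℝ (Fin D) → Fin r,
        ∀ q : Fin n → EuclideanSpace ℝ (Fin D),
          (∀ i j, dist (q i) (q j) =
            dist (stereo fun k => t (i, k)) (stereo fun k => t (j, k))) →
          ∃ i j, col (q i) ≠ col (q j)) ∧
    ∃ A : Finset (EuclideanSpace ℝ (Fin 2)), A.card = 8 ∧ (∀ a ∈ A, ‖a‖ = 1) ∧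
      ∃ r : ℕ, 2 ≤ r ∧ ∀ D : ℕ, ∃ col : EuclideanSpace ℝ (Fin D) → Fin r,
        ∀ f : A → EuclideanSpace ℝ (Fin D),
          (∀ a b : A, dist (f a) (f b) = dist (a : EuclideanSpace ℝ (Fin 2)) b) →
            ∃ a b : A, col (f a) ≠ col (f b) := by
  classical
  refine ⟨fun m n hm hn => ?_, ?_⟩
  · filter_upwards [ae_algebraicIndependent (Fin n × Fin m)] with t ht
    obtain ⟨hinj, hr⟩ := not_ramsey_of_indep hm hn (t := fun i k => t (i, k)) ht
    exact ⟨hinj, fun i => norm_stereo _, hr⟩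
  · obtain ⟨p, hinj, hnorm, r, hr, hcol⟩ := exists_spherical_not_ramsey
    refine ⟨Finset.univ.image p, by rw [Finset.card_image_of_injective _ hinj]; simp, ?_, r, hr,
      fun D => ?_⟩
    · intro a ha
      obtain ⟨i, -, rfl⟩ := Finset.mem_image.1 ha
      exact hnorm i
    · obtain ⟨col, h⟩ := hcol D
      refine ⟨col, fun f hf => ?_⟩
      obtain ⟨i, j, hij⟩ := h (fun i => f ⟨p i, Finset.mem_image_of_mem p (Finset.mem_univ i)⟩)
        fun i j => hf _ _
      exact ⟨_, _, hij⟩

end Vale.Agent.Results.P058.RamseySetsAreRare
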